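import Mathlib

/-!
# P201, free kernel: separation of the augmentation filtration of a free group algebra

`K` a commutative ring, `F = FreeGroup X`, `R = MonoidAlgebra K F`.  For a letter
`s : X × Bool` we build the right Fox derivative `foxD s : R →+ R` (crossed homomorphism by a
`2 × 2` matrix lift) and prove by a descent on reduced words that a set of elements of
augmentation zero that is stable under all `foxD s` contains only `0`.
-/

namespace Vale.Agent.Lib.P201.H10

variable {K : Type*} [CommRing K] {X : Type*}

theorem of_mul_of_inv (g : FreeGroup X) :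
    MonoidAlgebra.of K (FreeGroup X) g * MonoidAlgebra.of K (FreeGroup X) g⁻¹ = 1 := by
  rw [← _root_.map_mul, mul_inv_cancel, _root_.map_one]

theorem of_inv_mul_of (g : FreeGroup X) :
    MonoidAlgebra.of K (FreeGroup X) g⁻¹ * MonoidAlgebra.of K (FreeGroup X) g = 1 := by
  rw [← _root_.map_mul, inv_mul_cancel, _root_.map_one]

/-- The unit `[[y, 0], [c y, 1]]` attached to a generator. -/
noncomputable def genUnit (c : X → MonoidAlgebra K (FreeGroup X)) (y : X) :
    (Matrix (Fin 2) (Fin 2) (MonoidAlgebra K (FreeGroup X)))ˣ where
  val := !![MonoidAlgebra.of K (FreeGroup X) (FreeGroup.of y), 0; c y, 1]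
  inv := !![MonoidAlgebra.of K (FreeGroup X) (FreeGroup.of y)⁻¹, 0;
            -(c y * MonoidAlgebra.of K (FreeGroup X) (FreeGroup.of y)⁻¹), 1]
  val_inv := by
    rw [Matrix.mul_fin_two, Matrix.one_fin_two]
    simp only [of_mul_of_inv, mul_zero, zero_mul, add_zero, zero_add, one_mul, mul_one, mul_neg,
      add_neg_cancel, neg_zero]
  inv_val := by
    rw [Matrix.mul_fin_two, Matrix.one_fin_two]
    simp only [of_inv_mul_of, mul_zero, zero_mul, add_zero, zero_add, one_mul, mul_one, neg_mul,
      mul_assoc, neg_add_cancel]

/-- The matrix lift of a family `c`. -/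
noncomputable def liftM (c : X → MonoidAlgebra K (FreeGroup X)) :
    FreeGroup X →* (Matrix (Fin 2) (Fin 2) (MonoidAlgebra K (FreeGroup X)))ˣ :=
  FreeGroup.lift (genUnit c)

/-- The value of the generator family for the letter `s`. -/
noncomputable def cS (s : X × Bool) (y : X) : MonoidAlgebra K (FreeGroup X) := by
  classical
  exact if y = s.1 then
    (if s.2 then 1 else -MonoidAlgebra.of K (FreeGroup X) (FreeGroup.of s.1)) else 0

/-- The right Fox derivative of a group element with respect to the letter `s`. -/
noncomputable def foxd (s : X × Bool) (g : FreeGroup X) : MonoidAlgebra K (FreeGroup X) :=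
  (Units.val (liftM (cS (K := K) s) g)) 1 0

/-- The word formula for the Fox derivative. -/
noncomputable def dw (s : X × Bool) : List (X × Bool) → MonoidAlgebra K (FreeGroup X)
  | [] => 0
  | a :: w => by
      classical
      exact (if a = s then MonoidAlgebra.of K (FreeGroup X) (FreeGroup.mk w) else 0)
        - (if a = (s.1, !s.2) then MonoidAlgebra.of K (FreeGroup X) (FreeGroup.mk (a :: w)) else 0)
        + dw s w

/-- The lower left entry of the matrix of a letter. -/
noncomputable def lv (s a : X × Bool) : MonoidAlgebra K (FreeGroup X) := by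
  classical
  exact (if a = s then 1 else 0)
    - (if a = (s.1, !s.2) then MonoidAlgebra.of K (FreeGroup X) (FreeGroup.mk [a]) else 0)

theorem liftM_letter (s a : X × Bool) :
    Units.val (liftM (cS (K := K) s) (FreeGroup.mk [a]))
      = !![MonoidAlgebra.of K (FreeGroup X) (FreeGroup.mk [a]), 0; lv s a, 1] := by
  classical
  obtain ⟨y, b⟩ := a
  obtain ⟨x, e⟩ := s
  cases b
  · -- inverse letter
    have h1 : (FreeGroup.mk [(y, false)] : FreeGroup X) = (FreeGroup.of y)⁻¹ := rfl
    have h0 : liftM (cS (K := K) (x, e)) (FreeGroup.of y) = genUnit (cS (x, e)) y :=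
      FreeGroup.lift_apply_of
    rw [h1, _root_.map_inv, h0, ← Units.inv_eq_val_inv]
    unfold genUnit cS lv
    by_cases hyx : y = x
    · subst hyx
      cases e
      · simp
        rfl
      · simp [h1]
    · have : ¬ ((y, false) = (x, e)) := fun h => hyx (congrArg Prod.fst h)
      have h2 : ¬ ((y, false) = (x, !e)) := fun h => hyx (congrArg Prod.fst h)
      simp [hyx, this, h2]
  · have h1 : (FreeGroup.mk [(y, true)] : FreeGroup X) = FreeGroup.of y := rfl
    have h0 : liftM (cS (K := K) (x, e)) (FreeGroup.of y) = genUnit (cS (x, e)) y :=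
      FreeGroup.lift_apply_of
    rw [h1, h0]
    unfold genUnit cS lv
    by_cases hyx : y = x
    · subst hyx
      cases e
      · simp [h1]
      · simp
    · have : ¬ ((y, true) = (x, e)) := fun h => hyx (congrArg Prod.fst h)
      have h2 : ¬ ((y, true) = (x, !e)) := fun h => hyx (congrArg Prod.fst h)
      simp [hyx, this, h2]

/-- All four entries of the matrix of a word. -/
theorem liftM_word (s : X × Bool) (w : List (X × Bool)) :
    Units.val (liftM (cS (K := K) s) (FreeGroup.mk w))
      = !![MonoidAlgebra.of K (FreeGroup X) (FreeGroup.mk w), 0; dw s w, 1] := by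
  classical
  induction w with
  | nil =>
    rw [← FreeGroup.one_eq_mk, _root_.map_one, _root_.map_one, Units.val_one, Matrix.one_fin_two]
    rfl
  | cons a w ih =>
    have h : (FreeGroup.mk (a :: w) : FreeGroup X) = FreeGroup.mk [a] * FreeGroup.mk w := by
      rw [FreeGroup.mul_mk]; rfl
    rw [h, _root_.map_mul, Units.val_mul, liftM_letter, ih, Matrix.mul_fin_two, _root_.map_mul]
    congr 1
    simp only [mul_zero, zero_mul, add_zero, zero_add, one_mul, mul_one]
    have e1 : lv (K := K) s a * MonoidAlgebra.of K (FreeGroup X) (FreeGroup.mk w) + dw s w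
        = dw s (a :: w) := by
      simp only [lv, dw]
      rw [sub_mul]
      congr 1
      congr 1
      · split_ifs <;> simp
      · split_ifs
        · rw [← _root_.map_mul, ← h]
        · simp
    rw [e1]

theorem foxd_mk (s : X × Bool) (w : List (X × Bool)) :
    foxd (K := K) s (FreeGroup.mk w) = dw s w := by
  unfold foxd
  rw [liftM_word]
  rfl

theorem exists_word (g : FreeGroup X) : ∃ w : List (X × Bool), FreeGroup.mk w = g := by
  classical
  exact ⟨g.toWord, FreeGroup.mk_toWord⟩

/-- The crossed homomorphism rule. -/
theorem foxd_mul (s : X × Bool) (g h : FreeGroup X) :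
    foxd (K := K) s (g * h)
      = foxd s g * MonoidAlgebra.of K (FreeGroup X) h + foxd s h := by
  obtain ⟨w1, rfl⟩ := exists_word g
  obtain ⟨w2, rfl⟩ := exists_word h
  unfold foxd
  rw [_root_.map_mul, Units.val_mul, liftM_word, liftM_word, Matrix.mul_fin_two]
  simp

/-- The right Fox derivative for the letter `s`, as an additive map of the group algebra. -/
noncomputable def foxD (s : X × Bool) :
    MonoidAlgebra K (FreeGroup X) →+ MonoidAlgebra K (FreeGroup X) :=
  (Finsupp.liftAddHom (fun g : FreeGroup X =>
      (smulAddHom K (MonoidAlgebra K (FreeGroup X))).flip (foxd s g))).comp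
    (MonoidAlgebra.coeffAddEquiv :
      MonoidAlgebra K (FreeGroup X) ≃+ (FreeGroup X →₀ K)).toAddMonoidHom

theorem foxD_apply (s : X × Bool) (r : MonoidAlgebra K (FreeGroup X)) :
    foxD s r = r.coeff.sum (fun g c => c • foxd (K := K) s g) := by
  unfold foxD
  simp [Finsupp.liftAddHom_apply, MonoidAlgebra.coeffAddEquiv]
  rfl

theorem foxD_single (s : X × Bool) (g : FreeGroup X) (c : K) :
    foxD s (MonoidAlgebra.single g c) = c • foxd (K := K) s g := by
  rw [foxD_apply, MonoidAlgebra.coeff_single, Finsupp.sum_single_index]
  simp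

/-- The product rule, for any additive map `ε` that is the augmentation on basis elements. -/
theorem foxD_mul (ε : MonoidAlgebra K (FreeGroup X) →+ K)
    (hε : ∀ (g : FreeGroup X) (c : K), ε (MonoidAlgebra.single g c) = c)
    (s : X × Bool) (u v : MonoidAlgebra K (FreeGroup X)) :
    foxD s (u * v) = foxD s u * v + ε u • foxD s v := by
  induction u using MonoidAlgebra.induction_linear with
  | zero => simp
  | add u1 u2 h1 h2 =>
    rw [add_mul, _root_.map_add, h1, h2, _root_.map_add, add_mul, _root_.map_add, add_smul]
    abel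
  | single g a =>
    induction v using MonoidAlgebra.induction_linear with
    | zero => simp
    | add v1 v2 h1 h2 =>
      rw [mul_add, _root_.map_add, h1, h2, _root_.map_add, mul_add, smul_add]
      abel
    | single h b =>
      rw [MonoidAlgebra.single_mul_single, foxD_single, foxD_single, foxD_single, hε, foxd_mul,
        smul_add]
      congr 1
      · have e : (MonoidAlgebra.single h b : MonoidAlgebra K (FreeGroup X))
            = b • MonoidAlgebra.of K (FreeGroup X) h := by
          rw [MonoidAlgebra.of_apply, MonoidAlgebra.smul_single', mul_one]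
        rw [e, smul_mul_smul_comm]
      · rw [mul_smul]

/-! ### Coefficients of the word formula on reduced words -/

theorem of_coeff (g h : FreeGroup X) :
    (MonoidAlgebra.of K (FreeGroup X) g).coeff h = by classical exact if g = h then 1 else 0 := by
  classical
  rw [MonoidAlgebra.of_apply, MonoidAlgebra.coeff_single, Finsupp.single_apply]

/-- The reduced word of a group element (classical decidability). -/
noncomputable def wd (g : FreeGroup X) : List (X × Bool) := by
  classical exact g.toWord

/-- The word length of a group element. -/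
noncomputable def nrm (g : FreeGroup X) : ℕ := (wd g).length

theorem wd_reduced (g : FreeGroup X) : FreeGroup.IsReduced (wd g) := by
  classical
  exact FreeGroup.isReduced_toWord

theorem mk_wd (g : FreeGroup X) : FreeGroup.mk (wd g) = g := by
  classical
  exact FreeGroup.mk_toWord

theorem wd_mk_of_reduced {w : List (X × Bool)} (hw : FreeGroup.IsReduced w) :
    wd (FreeGroup.mk w) = w := by
  classical
  unfold wd
  rw [FreeGroup.toWord_mk, hw.reduce_eq]

theorem nrm_mk_of_reduced {w : List (X × Bool)} (hw : FreeGroup.IsReduced w) :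
    nrm (FreeGroup.mk w) = w.length := by
  rw [nrm, wd_mk_of_reduced hw]

theorem mk_inj_of_reduced {w w' : List (X × Bool)} (hw : FreeGroup.IsReduced w)
    (hw' : FreeGroup.IsReduced w') (h : FreeGroup.mk w = FreeGroup.mk w') : w = w' := by
  have := congrArg wd h
  rwa [wd_mk_of_reduced hw, wd_mk_of_reduced hw'] at this

theorem reduced_tail {a : X × Bool} {w : List (X × Bool)} (h : FreeGroup.IsReduced (a :: w)) :
    FreeGroup.IsReduced w := by
  cases w with
  | nil => exact FreeGroup.IsReduced.nil
  | cons b w' => exact (FreeGroup.isReduced_cons_cons.mp h).2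

theorem dw_cons_coeff (s a : X × Bool) (w : List (X × Bool)) (h : FreeGroup X) :
    (dw (K := K) s (a :: w)).coeff h = by
      classical
      exact (if a = s ∧ FreeGroup.mk w = h then 1 else 0)
        - (if a = (s.1, !s.2) ∧ FreeGroup.mk (a :: w) = h then 1 else 0)
        + (dw (K := K) s w).coeff h := by
  classical
  simp only [dw]
  rw [MonoidAlgebra.coeff_add, MonoidAlgebra.coeff_sub, Finsupp.add_apply, Finsupp.sub_apply]
  congr 1
  congr 1
  · by_cases h1 : a = s
    · simp [h1, Finsupp.single_apply]
    · simp [h1]
  · by_cases h1 : a = (s.1, !s.2)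
    · simp [h1, Finsupp.single_apply]
    · simp [h1]

/-- No words longer than `w` occur in `dw s w`. -/
theorem dw_coeff_of_lt (s : X × Bool) :
    ∀ (w : List (X × Bool)), FreeGroup.IsReduced w → ∀ h : FreeGroup X, w.length < nrm h →
      (dw (K := K) s w).coeff h = 0 := by
  classical
  intro w
  induction w with
  | nil => intro _ h _; simp [dw]
  | cons a w ih =>
    intro hw h hlt
    rw [dw_cons_coeff, ih (reduced_tail hw) h (by simp at hlt; omega)]
    have h1 : ¬ (FreeGroup.mk w = h) := by
      intro e
      rw [← e, nrm_mk_of_reduced (reduced_tail hw)] at hlt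
      simp at hlt
    have h2 : ¬ (FreeGroup.mk (a :: w) = h) := by
      intro e
      rw [← e, nrm_mk_of_reduced hw] at hlt
      simp at hlt
    simp [h1, h2]

/-- Words of the same length as `w` occurring in `dw s w`. -/
theorem dw_coeff_top (s : X × Bool) (w : List (X × Bool)) (hw : FreeGroup.IsReduced w)
    (h : FreeGroup X) (hn : nrm h = w.length) (hne : (dw (K := K) s w).coeff h ≠ 0) :
    w.head? = some (s.1, !s.2) ∧ FreeGroup.mk w = h := by
  classical
  cases w with
  | nil => simp [dw] at hne
  | cons a w =>
    rw [dw_cons_coeff, dw_coeff_of_lt s w (reduced_tail hw) h (by simp at hn; omega)] at hne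
    have h1 : ¬ (FreeGroup.mk w = h) := by
      intro e
      rw [← e, nrm_mk_of_reduced (reduced_tail hw)] at hn
      simp at hn
    by_cases h2 : a = (s.1, !s.2) ∧ FreeGroup.mk (a :: w) = h
    · exact ⟨by simp [h2.1], h2.2⟩
    · simp [h1, h2] at hne

/-- The coefficient of the tail of a word starting with `s`. -/
theorem dw_coeff_tail (s : X × Bool) (g' : List (X × Bool))
    (hg : FreeGroup.IsReduced (s :: g')) (w : List (X × Bool)) (hw : FreeGroup.IsReduced w)
    (hlen : w.length ≤ g'.length + 1) :
    (dw (K := K) s w).coeff (FreeGroup.mk g') = by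
      classical exact if w = s :: g' then 1 else 0 := by
  classical
  have hg' : FreeGroup.IsReduced g' := reduced_tail hg
  have hhead : g'.head? ≠ some (s.1, !s.2) := by
    intro e
    cases g' with
    | nil => simp at e
    | cons b g'' =>
      simp at e
      subst e
      rw [FreeGroup.isReduced_cons_cons] at hg
      have := hg.1 rfl
      simp at this
  cases w with
  | nil => simp [dw]
  | cons a w' =>
    have hw' : FreeGroup.IsReduced w' := reduced_tail hw
    rw [dw_cons_coeff]
    have h3 : (dw (K := K) s w').coeff (FreeGroup.mk g') = 0 := by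
      by_contra hne
      by_cases hl : w'.length < g'.length
      · exact hne (dw_coeff_of_lt s w' hw' _ (by rw [nrm_mk_of_reduced hg']; exact hl))
      · have hl' : nrm (FreeGroup.mk g') = w'.length := by
          rw [nrm_mk_of_reduced hg']; simp at hlen; omega
        obtain ⟨e1, e2⟩ := dw_coeff_top s w' hw' _ hl' hne
        have := mk_inj_of_reduced hw' hg' e2
        subst this
        exact hhead e1
    have h2 : ¬ (a = (s.1, !s.2) ∧ FreeGroup.mk (a :: w') = FreeGroup.mk g') := by
      rintro ⟨e1, e2⟩
      have := mk_inj_of_reduced hw hg' e2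
      subst this
      exact hhead (by simp [e1])
    rw [h3, if_neg h2]
    by_cases h1 : a = s ∧ FreeGroup.mk w' = FreeGroup.mk g'
    · have := mk_inj_of_reduced hw' hg' h1.2
      simp [h1.1, this]
    · have : ¬ (a :: w' = s :: g') := by
        intro e
        simp at e
        exact h1 ⟨e.1, by rw [e.2]⟩
      simp [h1, this]

/-! ### The descent -/

/-- Coefficients of the Fox derivative. -/
theorem foxD_coeff (s : X × Bool) (r : MonoidAlgebra K (FreeGroup X)) (h : FreeGroup X) :
    (foxD s r).coeff h
      = ∑ g ∈ r.coeff.support, r.coeff g * (dw (K := K) s (wd g)).coeff h := by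
  rw [foxD_apply, MonoidAlgebra.coeff_finsuppSum, Finsupp.sum_apply, Finsupp.sum]
  refine Finset.sum_congr rfl fun g _ => ?_
  rw [MonoidAlgebra.coeff_smul, Finsupp.smul_apply, smul_eq_mul, ← foxd_mk, mk_wd]

/-- The maximal word length in the support. -/
noncomputable def topLen (r : MonoidAlgebra K (FreeGroup X)) : ℕ := r.coeff.support.sup nrm

/-- The words of maximal length in the support. -/
noncomputable def topSet (r : MonoidAlgebra K (FreeGroup X)) : Finset (FreeGroup X) := by
  classical exact r.coeff.support.filter (fun g => nrm g = topLen r)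

theorem sep_aux (ε : MonoidAlgebra K (FreeGroup X) →+ K)
    (hε : ∀ (g : FreeGroup X) (c : K), ε (MonoidAlgebra.single g c) = c)
    (S : Set (MonoidAlgebra K (FreeGroup X))) (h0 : ∀ r ∈ S, ε r = 0)
    (hst : ∀ r ∈ S, ∀ s : X × Bool, foxD s r ∈ S) :
    ∀ n m : ℕ, ∀ r ∈ S, topLen r = n → (topSet r).card = m → r = 0 := by
  classical
  intro n
  induction n using Nat.strong_induction_on with
  | _ n IHn =>
  intro m
  induction m using Nat.strong_induction_on with
  | _ m IHm =>
  intro r hr hL hT
  by_contra hne
  have hsupp : r.coeff.support.Nonempty := by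
    rw [Finsupp.support_nonempty_iff]
    intro e
    exact hne (MonoidAlgebra.coeff_eq_zero.1 e)
  obtain ⟨g0, hg0, hsup⟩ := Finset.exists_mem_eq_sup r.coeff.support hsupp nrm
  have hg0L : nrm g0 = topLen r := hsup.symm
  have hle : ∀ g ∈ r.coeff.support, nrm g ≤ topLen r := fun g hg => Finset.le_sup hg
  cases hw : wd g0 with
  | nil =>
    have htop : topLen r = 0 := by rw [← hg0L, nrm, hw]; rfl
    have hall : ∀ g ∈ r.coeff.support, g = 1 := by
      intro g hg
      have h1 : nrm g = 0 := by have := hle g hg; omega
      rw [nrm, List.length_eq_zero_iff] at h1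
      rw [← mk_wd g, h1]; rfl
    have hr1 : r = MonoidAlgebra.single 1 (r.coeff 1) := by
      apply MonoidAlgebra.ext
      ext h
      rw [MonoidAlgebra.coeff_single, Finsupp.single_apply]
      by_cases h1 : (1 : FreeGroup X) = h
      · simp [h1]
      · rw [if_neg h1]
        by_contra hc
        exact h1 (hall h (Finsupp.mem_support_iff.2 hc)).symm
    have h2 := h0 r hr
    rw [hr1, hε] at h2
    have h1 : g0 = 1 := hall g0 hg0
    rw [h1, Finsupp.mem_support_iff] at hg0
    exact hg0 h2
  | cons s g' =>
    have hred : FreeGroup.IsReduced (s :: g') := hw ▸ wd_reduced g0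
    have hlen0 : topLen r = g'.length + 1 := by rw [← hg0L, nrm, hw]; rfl
    have hr' : foxD s r ∈ S := hst r hr s
    have hi : (foxD s r).coeff (FreeGroup.mk g') = r.coeff g0 := by
      rw [foxD_coeff, Finset.sum_eq_single g0]
      · rw [dw_coeff_tail s g' hred (wd g0) (wd_reduced g0) (by rw [hw]; simp), if_pos hw,
          mul_one]
      · intro g hg hgne
        rw [dw_coeff_tail s g' hred (wd g) (wd_reduced g)
          (by have := hle g hg; rw [nrm] at this; omega), if_neg, mul_zero]
        intro e
        apply hgne
        rw [← mk_wd g, ← mk_wd g0, e, hw]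
      · intro h; exact absurd hg0 h
    have hne' : foxD s r ≠ 0 := by
      intro e
      rw [e] at hi
      exact (Finsupp.mem_support_iff.1 hg0) hi.symm
    have hii : ∀ h, topLen r < nrm h → (foxD s r).coeff h = 0 := by
      intro h hh
      rw [foxD_coeff]
      refine Finset.sum_eq_zero fun g hg => ?_
      rw [dw_coeff_of_lt s (wd g) (wd_reduced g) h (lt_of_le_of_lt (hle g hg) hh), mul_zero]
    have hiii : ∀ h, nrm h = topLen r → (foxD s r).coeff h ≠ 0 → r.coeff h ≠ 0 ∧ h ≠ g0 := by
      intro h hh hc
      rw [foxD_coeff] at hc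
      obtain ⟨g, hg, hgne⟩ := Finset.exists_ne_zero_of_sum_ne_zero hc
      have hd : (dw (K := K) s (wd g)).coeff h ≠ 0 := fun e => hgne (by rw [e, mul_zero])
      have hnl : nrm h = (wd g).length := by
        by_contra hcon
        have h3 : (wd g).length < nrm h := by have := hle g hg; rw [nrm] at this; omega
        exact hd (dw_coeff_of_lt s (wd g) (wd_reduced g) h h3)
      obtain ⟨e1, e2⟩ := dw_coeff_top s (wd g) (wd_reduced g) h hnl hd
      rw [mk_wd] at e2
      subst e2
      refine ⟨Finsupp.mem_support_iff.1 hg, ?_⟩
      intro e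
      rw [e, hw] at e1
      simp at e1
      have h4 := congrArg Prod.snd e1
      simp at h4
    have hLle : topLen (foxD s r) ≤ topLen r := by
      apply Finset.sup_le
      intro h hh
      by_contra hcon
      exact (Finsupp.mem_support_iff.1 hh) (hii h (by omega))
    rcases lt_or_eq_of_le hLle with hlt | heq
    · exact hne' (IHn (topLen (foxD s r)) (hL ▸ hlt) _ (foxD s r) hr' rfl rfl)
    · have hsub : topSet (foxD s r) ⊂ topSet r := by
        rw [Finset.ssubset_iff_of_subset]
        · refine ⟨g0, ?_, ?_⟩
          · simp only [topSet, Finset.mem_filter]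
            exact ⟨hg0, hg0L⟩
          · intro hmem
            simp only [topSet, Finset.mem_filter, Finsupp.mem_support_iff] at hmem
            exact (hiii g0 hg0L hmem.1).2 rfl
        · intro h hmem
          simp only [topSet, Finset.mem_filter, Finsupp.mem_support_iff] at hmem ⊢
          have h5 := hiii h (by rw [hmem.2, heq]) hmem.1
          exact ⟨h5.1, by rw [hmem.2, heq]⟩
      have hcard := Finset.card_lt_card hsub
      exact hne' (IHm (topSet (foxD s r)).card (hT ▸ hcard) (foxD s r) hr' (heq.trans hL) rfl)

/-- **Separation.**  A set of elements of augmentation zero of the group algebra of a free group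
that is stable under all right Fox derivatives (for the letters `x` and `x⁻¹`) is `{0}`. -/
theorem sep_of_stable (ε : MonoidAlgebra K (FreeGroup X) →+ K)
    (hε : ∀ (g : FreeGroup X) (c : K), ε (MonoidAlgebra.single g c) = c)
    (S : Set (MonoidAlgebra K (FreeGroup X))) (h0 : ∀ r ∈ S, ε r = 0)
    (hst : ∀ r ∈ S, ∀ s : X × Bool, foxD s r ∈ S) :
    ∀ r ∈ S, r = 0 :=
  fun r hr => sep_aux ε hε S h0 hst _ _ r hr rfl rfl

/-- Separation for a filtration: if `Fil 1` has augmentation zero and every Fox derivative maps
`Fil (k + 1)` into `Fil k`, then the intersection of the `Fil k` is zero. -/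
theorem sep_of_filtration (ε : MonoidAlgebra K (FreeGroup X) →+ K)
    (hε : ∀ (g : FreeGroup X) (c : K), ε (MonoidAlgebra.single g c) = c)
    (Fil : ℕ → Set (MonoidAlgebra K (FreeGroup X))) (h1 : ∀ r ∈ Fil 1, ε r = 0)
    (hD : ∀ (k : ℕ), ∀ r ∈ Fil (k + 1), ∀ s : X × Bool, foxD s r ∈ Fil k)
    (r : MonoidAlgebra K (FreeGroup X)) (hr : ∀ k, r ∈ Fil k) : r = 0 :=
  sep_of_stable ε hε {r | ∀ k, r ∈ Fil k} (fun r hr => h1 r (hr 1))
    (fun r hr s k => hD k r (hr (k + 1)) s) r hr

/-! ### Values on the basis letters -/

theorem foxd_one (s : X × Bool) : foxd (K := K) s (1 : FreeGroup X) = 0 := by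
  rw [FreeGroup.one_eq_mk, foxd_mk]
  rfl

theorem foxD_single_one (s : X × Bool) (c : K) :
    foxD s (MonoidAlgebra.single (1 : FreeGroup X) c) = 0 := by
  rw [foxD_single, foxd_one, smul_zero]

/-- Positive letters: `foxD (x, true)` sends the generator `y` to `1` if `y = x`, else to `0`. -/
theorem foxD_gen_pos (x y : X) :
    foxD (x, true) (MonoidAlgebra.single (FreeGroup.of y) (1 : K))
      = by classical exact if y = x then 1 else 0 := by
  classical
  have h1 : (FreeGroup.of y : FreeGroup X) = FreeGroup.mk [(y, true)] := rfl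
  rw [foxD_single, one_smul, h1, foxd_mk]
  simp only [dw]
  by_cases h : y = x
  · subst h
    simp [← FreeGroup.one_eq_mk]
    rfl
  · have h2 : ¬ ((y, true) = (x, true)) := fun e => h (congrArg Prod.fst e)
    simp [h, h2]

/-- Negative letters: `foxD (x, false)` sends the inverse generator `y⁻¹` to `1` if `y = x`,
else to `0`. -/
theorem foxD_gen_neg (x y : X) :
    foxD (x, false) (MonoidAlgebra.single (FreeGroup.of y)⁻¹ (1 : K))
      = by classical exact if y = x then 1 else 0 := by
  classical
  have h1 : ((FreeGroup.of y)⁻¹ : FreeGroup X) = FreeGroup.mk [(y, false)] := rfl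
  rw [foxD_single, one_smul, h1, foxd_mk]
  simp only [dw]
  by_cases h : y = x
  · subst h
    simp [← FreeGroup.one_eq_mk]
    rfl
  · have h2 : ¬ ((y, false) = (x, false)) := fun e => h (congrArg Prod.fst e)
    simp [h, h2]

end Vale.Agent.Lib.P201.H10
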