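import Mathlib
import Vale.Agent.Lib.P201.helper10.FreeSep

/-!
# P201, free kernel: the F-level package for the positive basis

For `d x := foxD (x, true)` on `MonoidAlgebra K (FreeGroup X)`: the product rule against a group
element (`fox_h1`), the values on the generators (`fox_h2`, `fox_h2'`), the fundamental formula
(`fox_h3` on group elements, `fox_fund` on all elements), `K`-linearity (`fox_h4`) and Lemma C in
the iterated form (`fox_h5`): if all iterated derivatives of `r` have augmentation zero then
`r = 0`.
-/

namespace Vale.Agent.Lib.P201.H10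

variable {K : Type*} [CommRing K] {X : Type*}

/-- The augmentation as an additive map. -/
noncomputable def aug : MonoidAlgebra K (FreeGroup X) →+ K :=
  (Finsupp.liftAddHom (fun _ : FreeGroup X => AddMonoidHom.id K)).comp
    (MonoidAlgebra.coeffAddEquiv :
      MonoidAlgebra K (FreeGroup X) ≃+ (FreeGroup X →₀ K)).toAddMonoidHom

theorem aug_single (g : FreeGroup X) (c : K) :
    aug (MonoidAlgebra.single g c) = c := by
  unfold aug
  simp [MonoidAlgebra.coeffAddEquiv]

/-- (h1) The product rule against a group element on the left. -/
theorem foxD_single_mul (s : X × Bool) (f : FreeGroup X) (u : MonoidAlgebra K (FreeGroup X)) :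
    foxD s (MonoidAlgebra.single f (1 : K) * u)
      = foxD s (MonoidAlgebra.single f 1) * u + foxD s u := by
  rw [foxD_mul aug aug_single, aug_single, one_smul]

theorem single_one_mul_eq_smul (c : K) (v : MonoidAlgebra K (FreeGroup X)) :
    MonoidAlgebra.single (1 : FreeGroup X) c * v = c • v := by
  apply MonoidAlgebra.ext
  ext m
  rw [MonoidAlgebra.coeff_single_one_mul, MonoidAlgebra.coeff_smul, Finsupp.smul_apply,
    smul_eq_mul]

/-- (h4) `K`-linearity. -/
theorem foxD_scalar_mul (s : X × Bool) (c : K) (u : MonoidAlgebra K (FreeGroup X)) :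
    foxD s (MonoidAlgebra.single (1 : FreeGroup X) c * u)
      = MonoidAlgebra.single (1 : FreeGroup X) c * foxD s u := by
  rw [foxD_mul aug aug_single, foxD_single_one, zero_mul, zero_add, aug_single,
    single_one_mul_eq_smul]

theorem foxD_smul (s : X × Bool) (c : K) (u : MonoidAlgebra K (FreeGroup X)) :
    foxD s (c • u) = c • foxD s u := by
  rw [← single_one_mul_eq_smul, foxD_scalar_mul, single_one_mul_eq_smul]

/-- Letters that do not occur contribute nothing. -/
theorem dw_eq_zero (i : X) (b : Bool) (w : List (X × Bool)) (h : ∀ a ∈ w, a.1 ≠ i) :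
    dw (K := K) (i, b) w = 0 := by
  classical
  induction w with
  | nil => rfl
  | cons a w ih =>
    have ha : a.1 ≠ i := h a (List.mem_cons_self ..)
    have h1 : ¬ (a = (i, b)) := fun e => ha (congrArg Prod.fst e)
    have h2 : ¬ (a = ((i, b).1, !(i, b).2)) := fun e => ha (congrArg Prod.fst e)
    simp only [dw]
    rw [if_neg h1, if_neg h2, ih (fun c hc => h c (List.mem_cons_of_mem _ hc))]
    simp

/-- The fundamental formula on words. -/
theorem fund_word (w : List (X × Bool)) (s : Finset X) (hs : ∀ a ∈ w, a.1 ∈ s) :
    MonoidAlgebra.of K (FreeGroup X) (FreeGroup.mk w) - 1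
      = ∑ i ∈ s, (MonoidAlgebra.of K (FreeGroup X) (FreeGroup.of i) - 1)
          * dw (K := K) (i, true) w := by
  classical
  induction w with
  | nil =>
    have : ∀ i : X, dw (K := K) (i, true) [] = 0 := fun i => rfl
    simp only [this, mul_zero, Finset.sum_const_zero]
    rw [← FreeGroup.one_eq_mk, _root_.map_one, sub_self]
  | cons a w ih =>
    have ih' := ih (fun b hb => hs b (List.mem_cons_of_mem _ hb))
    have ha : a.1 ∈ s := hs a (List.mem_cons_self ..)
    simp only [dw, mul_add, mul_sub, Finset.sum_add_distrib, Finset.sum_sub_distrib]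
    rw [← ih']
    obtain ⟨y, b⟩ := a
    cases b
    · -- the letter `y⁻¹`
      have e1 : ∀ i : X, ¬ ((y, false) = (i, true)) := by intro i; simp
      have hB : MonoidAlgebra.of K (FreeGroup X) (FreeGroup.of y)
          * MonoidAlgebra.of K (FreeGroup X) (FreeGroup.mk ((y, false) :: w))
          = MonoidAlgebra.of K (FreeGroup X) (FreeGroup.mk w) := by
        rw [← _root_.map_mul]
        congr 1
        have : (FreeGroup.mk ((y, false) :: w) : FreeGroup X)
            = (FreeGroup.of y)⁻¹ * FreeGroup.mk w := by
          have h1 : ((FreeGroup.of y)⁻¹ : FreeGroup X) = FreeGroup.mk [(y, false)] := rfl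
          rw [h1, FreeGroup.mul_mk]; rfl
        rw [this, mul_inv_cancel_left]
      have e2 : ∑ i ∈ s, (MonoidAlgebra.of K (FreeGroup X) (FreeGroup.of i) - 1)
            * (if (y, false) = ((i, true).1, !(i, true).2)
                then MonoidAlgebra.of K (FreeGroup X) (FreeGroup.mk ((y, false) :: w)) else 0)
          = (MonoidAlgebra.of K (FreeGroup X) (FreeGroup.of y) - 1)
            * MonoidAlgebra.of K (FreeGroup X) (FreeGroup.mk ((y, false) :: w)) := by
        rw [Finset.sum_eq_single y]
        · simp
        · intro i _ hi
          have : ¬ ((y, false) = ((i, true).1, !(i, true).2)) := by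
            simp; exact fun e => hi e.symm
          rw [if_neg this, mul_zero]
        · intro h; exact absurd ha h
      rw [e2]
      simp only [e1, if_false, mul_zero, Finset.sum_const_zero, zero_sub]
      rw [sub_mul, one_mul, hB]
      abel
    · -- the letter `y`
      have e1 : ∀ i : X, ¬ ((y, true) = ((i, true).1, !(i, true).2)) := by intro i; simp
      have hB : MonoidAlgebra.of K (FreeGroup X) (FreeGroup.of y)
          * MonoidAlgebra.of K (FreeGroup X) (FreeGroup.mk w)
          = MonoidAlgebra.of K (FreeGroup X) (FreeGroup.mk ((y, true) :: w)) := by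
        rw [← _root_.map_mul]
        congr 1
      have e2 : ∑ i ∈ s, (MonoidAlgebra.of K (FreeGroup X) (FreeGroup.of i) - 1)
            * (if (y, true) = (i, true)
                then MonoidAlgebra.of K (FreeGroup X) (FreeGroup.mk w) else 0)
          = (MonoidAlgebra.of K (FreeGroup X) (FreeGroup.of y) - 1)
            * MonoidAlgebra.of K (FreeGroup X) (FreeGroup.mk w) := by
        rw [Finset.sum_eq_single y]
        · simp
        · intro i _ hi
          have : ¬ ((y, true) = (i, true)) := by
            simp; exact fun e => hi e.symm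
          rw [if_neg this, mul_zero]
        · intro h; exact absurd ha h
      rw [e2]
      simp only [e1, if_false, mul_zero, Finset.sum_const_zero, sub_zero]
      rw [sub_mul, one_mul, hB]
      abel

/-- (h2) -/
theorem fox_h2 (x : X) :
    foxD (x, true) (MonoidAlgebra.single (FreeGroup.of x) (1 : K)) = 1 := by
  classical
  rw [foxD_gen_pos, if_pos rfl]

/-- (h2') -/
theorem fox_h2' (x y : X) (h : x ≠ y) :
    foxD (x, true) (MonoidAlgebra.single (FreeGroup.of y) (1 : K)) = 0 := by
  classical
  rw [foxD_gen_pos, if_neg (fun e => h e.symm)]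

/-- (h1) -/
theorem fox_h1 (x : X) (f : FreeGroup X) (r : MonoidAlgebra K (FreeGroup X)) :
    foxD (x, true) (MonoidAlgebra.single f (1 : K) * r)
      = foxD (x, true) (MonoidAlgebra.single f 1) * r + foxD (x, true) r :=
  foxD_single_mul _ f r

/-- (h4) -/
theorem fox_h4 (x : X) (c : K) (u : MonoidAlgebra K (FreeGroup X)) :
    foxD (x, true) (MonoidAlgebra.single (1 : FreeGroup X) c * u)
      = MonoidAlgebra.single (1 : FreeGroup X) c * foxD (x, true) u :=
  foxD_scalar_mul _ c u

/-- (h3) The fundamental formula on group elements, with finite support. -/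
theorem fox_h3 (f : FreeGroup X) :
    ∃ s : Finset X, (∀ i, i ∉ s → foxD (i, true) (MonoidAlgebra.single f (1 : K)) = 0) ∧
      MonoidAlgebra.single f (1 : K) - 1
        = ∑ i ∈ s, (MonoidAlgebra.single (FreeGroup.of i) (1 : K) - 1)
            * foxD (i, true) (MonoidAlgebra.single f 1) := by
  classical
  obtain ⟨w, rfl⟩ := exists_word f
  refine ⟨(w.map Prod.fst).toFinset, ?_, ?_⟩
  · intro i hi
    rw [foxD_single, one_smul, foxd_mk]
    apply dw_eq_zero
    intro a ha e
    apply hi
    rw [List.mem_toFinset, List.mem_map]
    exact ⟨a, ha, e⟩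
  · have h := fund_word (K := K) w (w.map Prod.fst).toFinset (by
      intro a ha
      rw [List.mem_toFinset, List.mem_map]
      exact ⟨a, ha, rfl⟩)
    simp only [foxD_single, one_smul, foxd_mk]
    simpa [MonoidAlgebra.of_apply] using h

/-- The fundamental formula for all elements (any augmentation `ε`). -/
theorem fox_fund (ε : MonoidAlgebra K (FreeGroup X) →+ K)
    (hε : ∀ (g : FreeGroup X) (c : K), ε (MonoidAlgebra.single g c) = c)
    (r : MonoidAlgebra K (FreeGroup X)) :
    ∃ s : Finset X, (∀ x, x ∉ s → foxD (x, true) r = 0) ∧
      r = MonoidAlgebra.single 1 (ε r)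
        + ∑ x ∈ s, (MonoidAlgebra.single (FreeGroup.of x) (1 : K) - 1) * foxD (x, true) r := by
  classical
  induction r using MonoidAlgebra.induction_linear with
  | zero => exact ⟨∅, by simp, by simp⟩
  | add r1 r2 h1 h2 =>
    obtain ⟨s1, a1, b1⟩ := h1
    obtain ⟨s2, a2, b2⟩ := h2
    refine ⟨s1 ∪ s2, ?_, ?_⟩
    · intro x hx
      rw [_root_.map_add, a1 x (fun h => hx (Finset.mem_union_left _ h)),
        a2 x (fun h => hx (Finset.mem_union_right _ h)), add_zero]
    · have e1 : ∑ x ∈ s1 ∪ s2, (MonoidAlgebra.single (FreeGroup.of x) (1 : K) - 1)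
            * foxD (x, true) r1
          = ∑ x ∈ s1, (MonoidAlgebra.single (FreeGroup.of x) (1 : K) - 1)
            * foxD (x, true) r1 := by
        symm
        apply Finset.sum_subset Finset.subset_union_left
        intro x _ hx
        rw [a1 x hx, mul_zero]
      have e2 : ∑ x ∈ s1 ∪ s2, (MonoidAlgebra.single (FreeGroup.of x) (1 : K) - 1)
            * foxD (x, true) r2
          = ∑ x ∈ s2, (MonoidAlgebra.single (FreeGroup.of x) (1 : K) - 1)
            * foxD (x, true) r2 := by
        symm
        apply Finset.sum_subset Finset.subset_union_right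
        intro x _ hx
        rw [a2 x hx, mul_zero]
      calc r1 + r2
          = (MonoidAlgebra.single 1 (ε r1)
              + ∑ x ∈ s1, (MonoidAlgebra.single (FreeGroup.of x) (1 : K) - 1)
                  * foxD (x, true) r1)
            + (MonoidAlgebra.single 1 (ε r2)
              + ∑ x ∈ s2, (MonoidAlgebra.single (FreeGroup.of x) (1 : K) - 1)
                  * foxD (x, true) r2) := by rw [← b1, ← b2]
        _ = MonoidAlgebra.single 1 (ε (r1 + r2))
            + ∑ x ∈ s1 ∪ s2, (MonoidAlgebra.single (FreeGroup.of x) (1 : K) - 1)
                * foxD (x, true) (r1 + r2) := by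
          rw [_root_.map_add, MonoidAlgebra.single_add]
          simp only [_root_.map_add, mul_add, Finset.sum_add_distrib]
          rw [e1, e2]
          abel
  | single f c =>
    obtain ⟨s, a, b⟩ := fox_h3 (K := K) f
    have hc : (MonoidAlgebra.single f c : MonoidAlgebra K (FreeGroup X))
        = c • MonoidAlgebra.single f (1 : K) := by
      rw [MonoidAlgebra.smul_single', mul_one]
    refine ⟨s, ?_, ?_⟩
    · intro x hx
      rw [hc, foxD_smul, a x hx, smul_zero]
    · rw [hε]
      have h2 : (MonoidAlgebra.single f (1 : K) : MonoidAlgebra K (FreeGroup X))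
          = 1 + ∑ i ∈ s, (MonoidAlgebra.single (FreeGroup.of i) (1 : K) - 1)
            * foxD (i, true) (MonoidAlgebra.single f 1) := by
        rw [← b]; abel
      have h3 : ∀ x : X, (MonoidAlgebra.single (FreeGroup.of x) (1 : K) - 1)
            * foxD (x, true) (MonoidAlgebra.single f c)
          = c • ((MonoidAlgebra.single (FreeGroup.of x) (1 : K) - 1)
            * foxD (x, true) (MonoidAlgebra.single f 1)) := by
        intro x
        rw [hc, foxD_smul, mul_smul_comm]
      simp only [h3]
      rw [← Finset.smul_sum]
      have h4 : (MonoidAlgebra.single (1 : FreeGroup X) c : MonoidAlgebra K (FreeGroup X))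
          = c • 1 := by
        rw [MonoidAlgebra.one_def, MonoidAlgebra.smul_single', mul_one]
      rw [h4, ← smul_add, ← h2, hc]

/-! ### Lemma C in the iterated form -/

/-- An augmentation is multiplicative against elements of augmentation zero. -/
theorem eps_mul (ε : MonoidAlgebra K (FreeGroup X) →+ K)
    (hε : ∀ (g : FreeGroup X) (c : K), ε (MonoidAlgebra.single g c) = c)
    (u v : MonoidAlgebra K (FreeGroup X)) : ε (u * v) = ε u * ε v := by
  induction u using MonoidAlgebra.induction_linear with
  | zero => simp
  | add u1 u2 h1 h2 => rw [add_mul, _root_.map_add, h1, h2, _root_.map_add, add_mul]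
  | single g a =>
    induction v using MonoidAlgebra.induction_linear with
    | zero => simp
    | add v1 v2 h1 h2 => rw [mul_add, _root_.map_add, h1, h2, _root_.map_add, mul_add]
    | single h b => rw [MonoidAlgebra.single_mul_single, hε, hε, hε]

theorem iter_add (l : List X) (a b : MonoidAlgebra K (FreeGroup X)) :
    l.foldl (fun acc x => foxD (x, true) acc) (a + b)
      = l.foldl (fun acc x => foxD (x, true) acc) a
        + l.foldl (fun acc x => foxD (x, true) acc) b := by
  induction l generalizing a b with
  | nil => rfl
  | cons x l ih => simp only [List.foldl_cons, _root_.map_add, ih]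

/-- The elements all of whose iterated derivatives of length at most `l.length` have
augmentation zero are stable under left multiplication, as far as `l` sees. -/
theorem eps_iter_mul (ε : MonoidAlgebra K (FreeGroup X) →+ K)
    (hε : ∀ (g : FreeGroup X) (c : K), ε (MonoidAlgebra.single g c) = c) :
    ∀ (l : List X) (r : MonoidAlgebra K (FreeGroup X)),
      (∀ l' : List X, l'.length ≤ l.length →
        ε (l'.foldl (fun acc x => foxD (x, true) acc) r) = 0) →
      ∀ u : MonoidAlgebra K (FreeGroup X),
        ε (l.foldl (fun acc x => foxD (x, true) acc) (u * r)) = 0 := by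
  intro l
  induction l with
  | nil =>
    intro r h u
    have h0 := h [] (le_refl _)
    simp only [List.foldl_nil] at h0 ⊢
    rw [eps_mul ε hε, h0, mul_zero]
  | cons x l ih =>
    intro r h u
    simp only [List.foldl_cons]
    rw [foxD_mul ε hε, iter_add, _root_.map_add]
    have hr : ∀ l' : List X, l'.length ≤ l.length →
        ε (l'.foldl (fun acc x => foxD (x, true) acc) r) = 0 := by
      intro l' hl'
      exact h l' (by simp; omega)
    have hdr : ∀ l' : List X, l'.length ≤ l.length →
        ε (l'.foldl (fun acc x => foxD (x, true) acc) (foxD (x, true) r)) = 0 := by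
      intro l' hl'
      have := h (x :: l') (by simp; omega)
      simpa only [List.foldl_cons] using this
    rw [ih r hr (foxD (x, true) u), ← single_one_mul_eq_smul,
      ih (foxD (x, true) r) hdr (MonoidAlgebra.single 1 (ε u)), add_zero]

/-- The derivative for `x⁻¹` is `-x` times the derivative for `x`, on words. -/
theorem dw_neg (x : X) (w : List (X × Bool)) :
    dw (K := K) (x, false) w
      = -(MonoidAlgebra.of K (FreeGroup X) (FreeGroup.of x)) * dw (x, true) w := by
  classical
  induction w with
  | nil => simp [dw]
  | cons a w ih =>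
    simp only [dw, ih, Bool.not_false, Bool.not_true]
    have hA : MonoidAlgebra.of K (FreeGroup X) (FreeGroup.of x)
        * MonoidAlgebra.of K (FreeGroup X) (FreeGroup.mk w)
        = MonoidAlgebra.of K (FreeGroup X) (FreeGroup.mk ((x, true) :: w)) := by
      rw [← _root_.map_mul]
      congr 1
    have hB : MonoidAlgebra.of K (FreeGroup X) (FreeGroup.of x)
        * MonoidAlgebra.of K (FreeGroup X) (FreeGroup.mk ((x, false) :: w))
        = MonoidAlgebra.of K (FreeGroup X) (FreeGroup.mk w) := by
      rw [← _root_.map_mul]
      congr 1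
      have : (FreeGroup.mk ((x, false) :: w) : FreeGroup X)
          = (FreeGroup.of x)⁻¹ * FreeGroup.mk w := by
        have h1 : ((FreeGroup.of x)⁻¹ : FreeGroup X) = FreeGroup.mk [(x, false)] := rfl
        rw [h1, FreeGroup.mul_mk]; rfl
      rw [this, mul_inv_cancel_left]
    by_cases h1 : a = (x, false)
    · have h2 : ¬ ((x, false) = (x, true)) := by simp
      subst h1
      simp only [if_true, if_neg h2, sub_zero, zero_sub, mul_add, mul_neg, neg_mul, hB, neg_neg]
    · by_cases h2 : a = (x, true)
      · subst h2
        simp only [if_true, if_neg h1, sub_zero, zero_sub, mul_add, neg_mul, hA]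
      · simp only [if_neg h1, if_neg h2, sub_zero, zero_add]

/-- The derivative for `x⁻¹` is `-x` times the derivative for `x`. -/
theorem foxD_neg (x : X) (r : MonoidAlgebra K (FreeGroup X)) :
    foxD (x, false) r
      = -(MonoidAlgebra.single (FreeGroup.of x) (1 : K)) * foxD (x, true) r := by
  induction r using MonoidAlgebra.induction_linear with
  | zero => simp
  | add r1 r2 h1 h2 => rw [_root_.map_add, h1, h2, _root_.map_add, mul_add]
  | single g c =>
    obtain ⟨w, rfl⟩ := exists_word g
    rw [foxD_single, foxD_single, foxd_mk, foxd_mk, dw_neg, mul_smul_comm,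
      MonoidAlgebra.of_apply]

/-- (h5) **Lemma C**: if all iterated Fox derivatives (positive basis) of `r` have
augmentation zero, then `r = 0`. -/
theorem fox_h5 (ε : MonoidAlgebra K (FreeGroup X) →+ K)
    (hε : ∀ (g : FreeGroup X) (c : K), ε (MonoidAlgebra.single g c) = c)
    (r : MonoidAlgebra K (FreeGroup X))
    (h : ∀ l : List X, ε (l.foldl (fun acc x => foxD (x, true) acc) r) = 0) : r = 0 := by
  refine sep_of_stable ε hε
    {r | ∀ l : List X, ε (l.foldl (fun acc x => foxD (x, true) acc) r) = 0} ?_ ?_ r h
  · intro r hr
    exact hr []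
  · intro r hr s
    obtain ⟨x, b⟩ := s
    have hpos : ∀ l : List X,
        ε (l.foldl (fun acc x => foxD (x, true) acc) (foxD (x, true) r)) = 0 := by
      intro l
      have := hr (x :: l)
      simpa only [List.foldl_cons] using this
    cases b
    · intro l
      rw [foxD_neg]
      exact eps_iter_mul ε hε l (foxD (x, true) r) (fun l' _ => hpos l') _
    · exact hpos

end Vale.Agent.Lib.P201.H10
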